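import Vale.Agent.P092.H221.Gr1

/-!
P092 (helper725), team D, block [D-GL]: the growth lemma for all exponents.  The doubling step of
helper221 (`H221/Gr1.lean`) is repeated with explicit error, so that one more factor can be
inserted for every binary digit of the exponent.
-/

set_option linter.all false

open ContinuousLinearMap
open scoped InnerProductSpace

namespace Vale.Agent.P092.H221.Gr

variable {K : Type*} [NormedAddCommGroup K] [InnerProductSpace ℂ K] [CompleteSpace K]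
  {H : Type*} [Group H] {π : H →* (K →L[ℂ] K)} {M : StarSubalgebra ℂ (K →L[ℂ] K)} {Ω : K}
  {F : ℕ → Submodule ℂ K}

namespace GrD

variable (D : GrD π M Ω F)

include D

/-- One doubling, with explicit error (the proof of `GrD.double`). -/
theorem double' {b : H} {ι : Type*} [Fintype ι] [Nonempty ι] {l : ι → H}
    (hl : ∀ i, Commute (l i) b) {δ η ε : ℝ} (hδ0 : 0 ≤ δ) (hδ : δ ≤ 1 / 12)
    (gap : ∀ x ∈ M, ‖x‖ ≤ 1 → ‖(((Fintype.card ι : ℂ)⁻¹) • ∑ i, π (l i) * x * π (l i)⁻¹) Ω -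
      ⟪Ω, x Ω⟫_ℂ • Ω‖ ≤ η)
    {J₀ : ℕ} (hK : ∀ i, ∃ Z ∈ CC π M Ω F J₀ (l i), ‖(Z - 1) Ω‖ ≤ ε)
    (hK' : ∀ i, ∃ Z ∈ CC π M Ω F J₀ (l i)⁻¹, ‖(Z - 1) Ω‖ ≤ ε)
    {J : ℕ} {Z : K →L[ℂ] K} (hZ : Z ∈ CC π M Ω F J b) (hZ1 : 1 - δ ≤ (⟪Ω, Z Ω⟫_ℂ).re) :
    ∃ Y ∈ CC π M Ω F (6 * J + 12 * J₀) (b * b),
      1 - (6 * δ ^ 2 + 6 * (η + 2 * ε)) ≤ (⟪Ω, Y Ω⟫_ℂ).re := by
  classical
  have hcard : (0 : ℝ) < Fintype.card ι := by exact_mod_cast Fintype.card_pos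
  have hcard' : (Fintype.card ι : ℂ) ≠ 0 := by exact_mod_cast Fintype.card_ne_zero
  -- rotate the phase
  set τ := ⟪Ω, Z Ω⟫_ℂ with hτ
  set t : ℝ := ‖τ‖ with ht
  have ht1 : t ≤ 1 := D.norm_trace_le hZ.2.1
  have htδ : 1 - δ ≤ t := hZ1.trans (Complex.re_le_norm _)
  have ht0 : 0 < t := by linarith
  have hc : ‖(starRingEnd ℂ) τ / (t : ℂ)‖ ≤ 1 := by
    rw [norm_div, RCLike.norm_conj, Complex.norm_real, Real.norm_of_nonneg ht0.le, ← ht,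
      div_self ht0.ne']
  set Z₁ := ((starRingEnd ℂ) τ / (t : ℂ)) • Z with hZ₁
  have hZ₁m : Z₁ ∈ CC π M Ω F J b := D.cc_smul hZ hc
  have hτ1 : ⟪Ω, Z₁ Ω⟫_ℂ = (t : ℂ) := by
    rw [hZ₁, smul_apply, inner_smul_right, ← hτ]
    have h1 : (starRingEnd ℂ) τ * τ = ((t : ℂ)) ^ 2 := by
      rw [mul_comm, Complex.mul_conj, Complex.normSq_eq_norm_sq, ← ht]
      push_cast
      rfl
    have h2 : (t : ℂ) ≠ 0 := by exact_mod_cast ht0.ne'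
    rw [div_mul_eq_mul_div, h1]
    field_simp
  -- conjugate
  choose A hA hA1 using hK
  choose B hB hB1 using hK'
  set W : ι → K →L[ℂ] K := fun i => A i * (π (l i) * (Z₁ * (π b * B i * π b⁻¹)) * π (l i)⁻¹)
    with hW
  have hWc : ∀ i, W i ∈ CC π M Ω F (J + 2 * J₀) b := fun i => by
    have h1 := D.cc_mul (hA i) (D.cc_mul hZ₁m (hB i))
    have h2 : l i * (b * (l i)⁻¹) = b := by
      rw [← mul_assoc, (hl i).eq, mul_inv_cancel_right]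
    rw [h2] at h1
    exact D.cc_mono (by omega) h1
  have hWn : ∀ i, ‖(W i - π (l i) * Z₁ * π (l i)⁻¹) Ω‖ ≤ 2 * ε := fun i => by
    have hb1 : π b * (1 : K →L[ℂ] K) * π b⁻¹ = 1 := by rw [mul_one, D.pi_mul_inv]
    have e1 : W i - π (l i) * Z₁ * π (l i)⁻¹ =
        (A i - 1) * (π (l i) * (Z₁ * (π b * B i * π b⁻¹)) * π (l i)⁻¹) +
          π (l i) * (Z₁ * (π b * (B i - 1) * π b⁻¹)) * π (l i)⁻¹ := by
      rw [hW]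
      simp only [mul_sub, sub_mul]
      rw [hb1]
      simp only [mul_one, one_mul]
      abel
    have hB1M : B i - 1 ∈ M := sub_mem (hB i).1 (one_mem _)
    rw [e1, add_apply]
    refine (norm_add_le _ _).trans ?_
    have m1 : π b * B i * π b⁻¹ ∈ M := D.Ad _ _ (hB i).1
    have m2 : π (l i) * (Z₁ * (π b * B i * π b⁻¹)) * π (l i)⁻¹ ∈ M :=
      D.Ad _ _ (mul_mem hZ₁m.1 m1)
    have c1 : ‖π (l i) * (Z₁ * (π b * B i * π b⁻¹)) * π (l i)⁻¹‖ ≤ 1 := by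
      refine (D.norm_Ad_le _ _).trans ((norm_mul_le _ _).trans ?_)
      exact mul_le_one₀ hZ₁m.2.1 (norm_nonneg _) ((D.norm_Ad_le _ _).trans (hB i).2.1)
    have n1 : ‖((A i - 1) * (π (l i) * (Z₁ * (π b * B i * π b⁻¹)) * π (l i)⁻¹)) Ω‖ ≤ ε := by
      refine (D.norm_mul_le_right (sub_mem (hA i).1 (one_mem _)) m2).trans ?_
      exact (mul_le_of_le_one_right (norm_nonneg _) c1).trans (hA1 i)
    have n2 : ‖(π (l i) * (Z₁ * (π b * (B i - 1) * π b⁻¹)) * π (l i)⁻¹) Ω‖ ≤ ε := by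
      rw [D.norm_Ad (mul_mem hZ₁m.1 (D.Ad _ _ hB1M))]
      refine (D.norm_mul_le_left _ _).trans ?_
      rw [D.norm_Ad hB1M]
      exact (mul_le_of_le_one_left (norm_nonneg _) hZ₁m.2.1).trans (hB1 i)
    linarith
  -- the mean
  set X := ((Fintype.card ι : ℂ)⁻¹) • ∑ i, W i with hX
  have hXc : X ∈ CC π M Ω F (J + 2 * J₀) b := D.cc_mean hWc
  have hXn : ‖(X - (t : ℂ) • (1 : K →L[ℂ] K)) Ω‖ ≤ η + 2 * ε := by
    have e1 : (X - (t : ℂ) • (1 : K →L[ℂ] K)) Ω =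
        (((Fintype.card ι : ℂ)⁻¹) • ∑ i, (W i - π (l i) * Z₁ * π (l i)⁻¹)) Ω +
        ((((Fintype.card ι : ℂ)⁻¹) • ∑ i, π (l i) * Z₁ * π (l i)⁻¹) Ω - ⟪Ω, Z₁ Ω⟫_ℂ • Ω) := by
      rw [hτ1, Finset.sum_sub_distrib, smul_sub, ← hX]
      simp only [sub_apply, smul_apply, one_apply_eq_self]
      abel
    rw [e1]
    refine (norm_add_le _ _).trans ?_
    have n1 := gap Z₁ hZ₁m.1 hZ₁m.2.1
    have n2 : ‖(((Fintype.card ι : ℂ)⁻¹) • ∑ i, (W i - π (l i) * Z₁ * π (l i)⁻¹)) Ω‖ ≤ 2 * ε := by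
      rw [smul_apply, sum_apply, norm_smul, norm_inv, Complex.norm_natCast,
        inv_mul_le_iff₀ hcard]
      refine (norm_sum_le _ _).trans ((Finset.sum_le_sum fun i _ => hWn i).trans ?_)
      simp
    linarith
  -- the product
  have hXb : ‖(π b * X * π b⁻¹ - (t : ℂ) • (1 : K →L[ℂ] K)) Ω‖ ≤ η + 2 * ε := by
    have e1 : π b * X * π b⁻¹ - (t : ℂ) • (1 : K →L[ℂ] K) =
        π b * (X - (t : ℂ) • (1 : K →L[ℂ] K)) * π b⁻¹ := by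
      have e2 : π b * ((t : ℂ) • (1 : K →L[ℂ] K)) * π b⁻¹ = (t : ℂ) • (1 : K →L[ℂ] K) := by
        rw [mul_smul_comm, smul_mul_assoc, mul_one, D.pi_mul_inv]
      rw [mul_sub, sub_mul, e2]
    rw [e1, D.norm_Ad (sub_mem hXc.1 (M.smul_mem (one_mem _) _))]
    exact hXn
  have hPc := D.cc_mul hXc hXc
  have hPn := D.norm_sub_scalar_mul hXc.1 (D.Ad b X hXc.1) ((D.norm_Ad_le b X).trans hXc.2.1)
    ht0.le ht1 hXn hXb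
  -- Newton
  have hs0 : 0 ≤ t ^ 2 := sq_nonneg _
  have hs1 : t ^ 2 ≤ 1 := by nlinarith
  have hYn := D.norm_nw_sub hPc.1 hPc.2.1 hs0 hs1
  have hYc := D.cc_nw hPc
  refine ⟨_, D.cc_mono (by omega) hYc, ?_⟩
  set Y := nw (X * (π b * X * π b⁻¹)) with hY
  set f : ℝ := 3 / 2 * t ^ 2 - 1 / 2 * (t ^ 2) ^ 3 with hf
  have r1 : |(⟪Ω, (Y - (f : ℂ) • (1 : K →L[ℂ] K)) Ω⟫_ℂ).re| ≤ 6 * (η + 2 * ε) := by
    refine (Complex.abs_re_le_norm _).trans ((norm_inner_le_norm _ _).trans ?_)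
    rw [D.one, one_mul]
    linarith
  have r2 : (⟪Ω, (Y - (f : ℂ) • (1 : K →L[ℂ] K)) Ω⟫_ℂ).re = (⟪Ω, Y Ω⟫_ℂ).re - f := by
    rw [sub_apply, smul_apply, one_apply_eq_self, inner_sub_right, inner_smul_right,
      inner_self_eq_norm_sq_to_K, D.one]
    simp
  rw [r2] at r1
  have r3 := (abs_le.mp r1).1
  have s1 : 1 - 2 * δ ≤ t ^ 2 := by nlinarith
  have r4 : 1 - 6 * δ ^ 2 ≤ f := by
    have h1 : 1 - f = (1 - t ^ 2) ^ 2 * (1 + t ^ 2 / 2) := by rw [hf]; ring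
    have h2 : (1 - t ^ 2) ^ 2 ≤ (2 * δ) ^ 2 := by
      apply pow_le_pow_left₀ (by linarith)
      linarith
    have h3 : (1 - t ^ 2) ^ 2 * (1 + t ^ 2 / 2) ≤ (2 * δ) ^ 2 * (3 / 2) := by
      apply mul_le_mul h2 (by linarith) (by positivity) (by positivity)
    nlinarith
  nlinarith


theorem re_tr_sub {x y : K →L[ℂ] K} {r : ℝ} (h : ‖(x - y) Ω‖ ≤ r) :
    (⟪Ω, y Ω⟫_ℂ).re - r ≤ (⟪Ω, x Ω⟫_ℂ).re := by
  have h1 : ⟪Ω, x Ω⟫_ℂ = ⟪Ω, y Ω⟫_ℂ + ⟪Ω, (x - y) Ω⟫_ℂ := by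
    rw [← inner_add_right, sub_apply, add_sub_cancel]
  have h2 : |(⟪Ω, (x - y) Ω⟫_ℂ).re| ≤ r := by
    refine (Complex.abs_re_le_norm _).trans ((norm_inner_le_norm _ _).trans ?_)
    rw [D.one, one_mul]
    exact h
  rw [h1, Complex.add_re]
  have := (abs_le.mp h2).1
  linarith

/-- One step: from `b` to `b b a`. -/
theorem odd_step {b a : H} {ι : Type*} [Fintype ι] [Nonempty ι] {l : ι → H}
    (hl : ∀ i, Commute (l i) b) {δ η ε : ℝ} (hδ0 : 0 ≤ δ) (hδ : δ ≤ 1 / 24)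
    (hη : η + 2 * ε ≤ δ / 24) (hε : ε ≤ δ / 2)
    (gap : ∀ x ∈ M, ‖x‖ ≤ 1 → ‖(((Fintype.card ι : ℂ)⁻¹) • ∑ i, π (l i) * x * π (l i)⁻¹) Ω -
      ⟪Ω, x Ω⟫_ℂ • Ω‖ ≤ η)
    {J₀ : ℕ} (hK : ∀ i, ∃ Z ∈ CC π M Ω F J₀ (l i), ‖(Z - 1) Ω‖ ≤ ε)
    (hK' : ∀ i, ∃ Z ∈ CC π M Ω F J₀ (l i)⁻¹, ‖(Z - 1) Ω‖ ≤ ε)
    (hA : ∃ Z ∈ CC π M Ω F J₀ a, ‖(Z - 1) Ω‖ ≤ ε)
    {J : ℕ} {Z : K →L[ℂ] K} (hZ : Z ∈ CC π M Ω F J b) (hZ1 : 1 - δ ≤ (⟪Ω, Z Ω⟫_ℂ).re) :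
    (∃ Y ∈ CC π M Ω F (6 * J + 13 * J₀) (b * b), 1 - δ ≤ (⟪Ω, Y Ω⟫_ℂ).re) ∧
      ∃ Y ∈ CC π M Ω F (6 * J + 13 * J₀) (b * b * a), 1 - δ ≤ (⟪Ω, Y Ω⟫_ℂ).re := by
  obtain ⟨Y, hY, hY1⟩ := D.double' hl hδ0 (by linarith) gap hK hK' hZ hZ1
  have hY2 : 1 - δ / 2 ≤ (⟪Ω, Y Ω⟫_ℂ).re := by
    have h1 : 6 * δ ^ 2 ≤ δ / 4 := by nlinarith
    linarith
  refine ⟨⟨Y, D.cc_mono (by omega) hY, by linarith⟩, ?_⟩
  obtain ⟨A, hA, hA1⟩ := hA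
  refine ⟨Y * (π (b * b) * A * π (b * b)⁻¹), D.cc_mono (by omega) (D.cc_mul hY hA), ?_⟩
  have hb1 : π (b * b) * (1 : K →L[ℂ] K) * π (b * b)⁻¹ = 1 := by rw [mul_one, D.pi_mul_inv]
  have e1 : Y * (π (b * b) * A * π (b * b)⁻¹) - Y = Y * (π (b * b) * (A - 1) * π (b * b)⁻¹) := by
    rw [mul_sub, sub_mul, hb1, mul_sub, mul_one]
  have h1 : ‖(Y * (π (b * b) * A * π (b * b)⁻¹) - Y) Ω‖ ≤ ε := by
    rw [e1]
    refine (D.norm_mul_le_left _ _).trans ?_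
    rw [D.norm_Ad (sub_mem hA.1 (one_mem _))]
    exact (mul_le_of_le_one_left (norm_nonneg _) hY.2.1).trans hA1
  have h2 := D.re_tr_sub h1
  linarith

/-- The growth lemma for all exponents, iterated. -/
theorem growth_iterN {a : H} {ι : Type*} [Fintype ι] [Nonempty ι] {l : ι → H}
    (hl : ∀ i, Commute (l i) a) {δ η ε : ℝ} (hδ0 : 0 ≤ δ) (hδ : δ ≤ 1 / 24)
    (hη : η + 2 * ε ≤ δ / 24) (hε : ε ≤ δ / 2)
    (gap : ∀ x ∈ M, ‖x‖ ≤ 1 → ‖(((Fintype.card ι : ℂ)⁻¹) • ∑ i, π (l i) * x * π (l i)⁻¹) Ω -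
      ⟪Ω, x Ω⟫_ℂ • Ω‖ ≤ η)
    {J₀ : ℕ} (hK : ∀ i, ∃ Z ∈ CC π M Ω F J₀ (l i), ‖(Z - 1) Ω‖ ≤ ε)
    (hK' : ∀ i, ∃ Z ∈ CC π M Ω F J₀ (l i)⁻¹, ‖(Z - 1) Ω‖ ≤ ε)
    (hA : ∃ Z ∈ CC π M Ω F J₀ a, ‖(Z - 1) Ω‖ ≤ ε) (n : ℕ) (hn : 1 ≤ n) :
    ∃ J, J + 3 * J₀ ≤ 4 * J₀ * n ^ 3 ∧
      ∃ Y ∈ CC π M Ω F J (a ^ n), 1 - δ ≤ (⟪Ω, Y Ω⟫_ℂ).re := by
  induction n using Nat.strong_induction_on with
  | _ n ih =>
    rcases Nat.eq_or_lt_of_le hn with h1 | h1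
    · subst h1
      obtain ⟨Z, hZ, hZ1⟩ := hA
      refine ⟨J₀, by omega, Z, by rwa [pow_one], ?_⟩
      have h2 := D.re_tr_sub hZ1
      have h3 : (⟪Ω, (1 : K →L[ℂ] K) Ω⟫_ℂ).re = 1 := by
        rw [one_apply_eq_self, inner_self_eq_norm_sq_to_K, D.one]
        simp
      rw [h3] at h2
      linarith
    · have hm : 1 ≤ n / 2 := by omega
      obtain ⟨J, hJ, Y, hY, hY1⟩ := ih (n / 2) (by omega) hm
      have hl' : ∀ i, Commute (l i) (a ^ (n / 2)) := fun i => (hl i).pow_right _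
      obtain ⟨h2, h3⟩ := D.odd_step hl' hδ0 hδ hη hε gap hK hK' hA hY hY1
      have hcube : 8 * (n / 2) ^ 3 ≤ n ^ 3 := by
        have h4 : 2 * (n / 2) ≤ n := Nat.mul_div_le n 2
        calc 8 * (n / 2) ^ 3 = (2 * (n / 2)) ^ 3 := by ring
          _ ≤ n ^ 3 := Nat.pow_le_pow_left h4 3
      have hsz : 6 * J + 13 * J₀ + 3 * J₀ ≤ 4 * J₀ * n ^ 3 := by
        have h5 : 1 ≤ (n / 2) ^ 3 := Nat.one_le_pow _ _ hm
        have h6 : J₀ ≤ J₀ * (n / 2) ^ 3 := Nat.le_mul_of_pos_right _ h5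
        have h7 : 4 * J₀ * (8 * (n / 2) ^ 3) ≤ 4 * J₀ * n ^ 3 := Nat.mul_le_mul_left _ hcube
        have h8 : 4 * J₀ * (8 * (n / 2) ^ 3) = 32 * (J₀ * (n / 2) ^ 3) := by ring
        have h9 : 4 * J₀ * (n / 2) ^ 3 = 4 * (J₀ * (n / 2) ^ 3) := by ring
        rw [h9] at hJ
        omega
      refine ⟨6 * J + 13 * J₀, hsz, ?_⟩
      rcases Nat.even_or_odd n with he | ho
      · obtain ⟨Y', hY', hY'1⟩ := h2
        refine ⟨Y', ?_, hY'1⟩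
        have e : a ^ (n / 2) * a ^ (n / 2) = a ^ n := by
          rw [← pow_add]
          congr 1
          have := Nat.even_iff.1 he
          omega
        rwa [e] at hY'
      · obtain ⟨Y', hY', hY'1⟩ := h3
        refine ⟨Y', ?_, hY'1⟩
        have e : a ^ (n / 2) * a ^ (n / 2) * a = a ^ n := by
          rw [← pow_add, ← pow_succ]
          congr 1
          have := Nat.odd_iff.1 ho
          omega
        rwa [e] at hY'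

/-- **The growth lemma for all exponents.** -/
theorem growth_all {a : H}
    (gap : ∀ η : ℝ, 0 < η → ∃ p : ℕ, 0 < p ∧ ∃ l : Fin p → H, (∀ i, Commute (l i) a) ∧
      ∀ x ∈ M, ‖x‖ ≤ 1 → ‖(((p : ℂ)⁻¹) • ∑ i, π (l i) * x * π (l i)⁻¹) Ω -
        ⟪Ω, x Ω⟫_ℂ • Ω‖ ≤ η)
    (kap : ∀ h : H, ∀ ε : ℝ, 0 < ε → ∃ J, ∃ Z ∈ CC π M Ω F J h, ‖(Z - 1) Ω‖ ≤ ε)
    {ε : ℝ} (hε : 0 < ε) :
    ∃ C : ℕ, ∀ n : ℕ, 1 ≤ n → ∃ Z ∈ CC π M Ω F (C * n ^ 3) (a ^ n), ‖(Z - 1) Ω‖ ≤ ε := by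
  classical
  obtain ⟨δ, hδ0, hδ, hδε⟩ : ∃ δ : ℝ, 0 < δ ∧ δ ≤ 1 / 24 ∧ 2 * δ ≤ ε ^ 2 := by
    refine ⟨min (1 / 24) (ε ^ 2 / 2), by positivity, min_le_left _ _, ?_⟩
    have := min_le_right (1 / 24 : ℝ) (ε ^ 2 / 2)
    linarith
  obtain ⟨p, hp, l, hl, hgap⟩ := gap (δ / 48) (by positivity)
  haveI : Nonempty (Fin p) := ⟨⟨0, hp⟩⟩
  have hk : ∀ h, ∃ J, ∃ Z ∈ CC π M Ω F J h, ‖(Z - 1) Ω‖ ≤ δ / 96 := fun h =>
    kap h _ (by positivity)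
  choose Jf Zf hZf hZf1 using hk
  set J₀ : ℕ := ∑ i, (Jf (l i) + Jf (l i)⁻¹) + Jf a with hJ₀
  have hJ : ∀ i, Jf (l i) + Jf (l i)⁻¹ ≤ J₀ := fun i =>
    (Finset.single_le_sum (f := fun i => Jf (l i) + Jf (l i)⁻¹) (fun _ _ => Nat.zero_le _)
      (Finset.mem_univ i)).trans (Nat.le_add_right _ _)
  refine ⟨4 * J₀, fun n hn => ?_⟩
  obtain ⟨J, hJk, Y, hY, hY1⟩ := D.growth_iterN (ι := Fin p) (l := l) hl hδ0.le hδ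
    (η := δ / 48) (ε := δ / 96) (by linarith) (by linarith) (by simpa using hgap) (J₀ := J₀)
    (fun i => ⟨Zf (l i), D.cc_mono ((Nat.le_add_right _ _).trans (hJ i)) (hZf _), hZf1 _⟩)
    (fun i => ⟨Zf (l i)⁻¹, D.cc_mono ((Nat.le_add_left _ _).trans (hJ i)) (hZf _), hZf1 _⟩)
    ⟨Zf a, D.cc_mono (Nat.le_add_left _ _) (hZf _), hZf1 _⟩ n hn
  refine ⟨Y, D.cc_mono (by omega) hY, ?_⟩
  have h3 := D.norm_sub_one hY.2.1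
  have h4 : ‖(Y - 1) Ω‖ ^ 2 ≤ ε ^ 2 := by linarith
  exact le_of_pow_le_pow_left₀ two_ne_zero hε.le h4

/-- The growth lemma for vectors and all exponents. -/
theorem growth_vec_all {a : H}
    (gap : ∀ η : ℝ, 0 < η → ∃ p : ℕ, 0 < p ∧ ∃ l : Fin p → H, (∀ i, Commute (l i) a) ∧
      ∀ x ∈ M, ‖x‖ ≤ 1 → ‖(((p : ℂ)⁻¹) • ∑ i, π (l i) * x * π (l i)⁻¹) Ω -
        ⟪Ω, x Ω⟫_ℂ • Ω‖ ≤ η)
    (kap : ∀ h : H, ∀ ε : ℝ, 0 < ε → ∃ J, ∃ Z ∈ CC π M Ω F J h, ‖(Z - 1) Ω‖ ≤ ε)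
    {ε : ℝ} (hε : 0 < ε) :
    ∃ C : ℕ, ∀ n : ℕ, 1 ≤ n → ∃ v ∈ F (C * n ^ 3), ‖π (a ^ n) Ω - v‖ ≤ ε := by
  obtain ⟨C, hC⟩ := D.growth_all gap kap hε
  refine ⟨C, fun k hk => ?_⟩
  obtain ⟨Z, hZ, hZ1⟩ := hC k hk
  refine ⟨Z (π (a ^ k) Ω), hZ.2.2, ?_⟩
  obtain ⟨u, hu, hu1, hu2, hu3⟩ := D.un (a ^ k)
  have hun : ‖u‖ ≤ 1 := by
    have h1 : ‖u‖ * ‖u‖ ≤ 1 := by
      rw [← CStarRing.norm_star_mul_self, hu1]
      exact ContinuousLinearMap.norm_id_le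
    nlinarith [norm_nonneg u]
  have e1 : π (a ^ k) Ω - Z (π (a ^ k) Ω) = -(((Z - 1) * u) Ω) := by
    rw [ContinuousLinearMap.mul_apply, hu3, sub_apply, one_apply_eq_self]
    abel
  rw [e1, norm_neg]
  refine (D.norm_mul_le_right (sub_mem hZ.1 (one_mem _)) hu).trans ?_
  exact (mul_le_of_le_one_right (norm_nonneg _) hun).trans hZ1

end GrD

end Vale.Agent.P092.H221.Gr
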