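import Vale.Agent.P092.H725.KapGL
import Vale.Agent.P092.H725.GrowN
import Vale.Agent.P092.H368.MsI

/-!
P092 (helper725), team D, instance pieces of [D-GL] → SIZE:
the filtration of `Γ` by `log nm (q γ)`, the gap hypothesis for conjugates, and the link between
the size subspaces `SzV` and the multiplication operators `m S`.
-/

set_option linter.all false

open scoped InnerProductSpace ENNReal
open Set Filter Topology MeasureTheory ContinuousLinearMap

namespace Vale.Agent.P092.H725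

open Vale.Agent.P092.H160 Vale.Agent.P092.H933 Vale.Agent.P092.H368
open Vale.Agent.P092.SD (G3 nm)

/-! ### The filtration -/

section nrm

variable {k : Type} [NontriviallyNormedField k]

theorem nm_nonneg (g : G3 k) : 0 ≤ nm g := norm_nonneg _

theorem entry_le_nm (g : G3 k) (i j : Fin 3) : ‖g.1 i j‖ ≤ nm g := by
  have h1 := norm_le_pi_norm (fun i j => g.1 i j : Fin 3 → Fin 3 → k) i
  have h2 := norm_le_pi_norm (fun j => g.1 i j : Fin 3 → k) j
  exact h2.trans h1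

theorem nm_mul (g h : G3 k) : nm (g * h) ≤ 3 * nm g * nm h := by
  have h0 : 0 ≤ 3 * nm g * nm h := by
    have := nm_nonneg g
    have := nm_nonneg h
    positivity
  refine (pi_norm_le_iff_of_nonneg h0).2 fun i => (pi_norm_le_iff_of_nonneg h0).2 fun j => ?_
  have e : (g * h).1 i j = g.1 i 0 * h.1 0 j + g.1 i 1 * h.1 1 j + g.1 i 2 * h.1 2 j := by
    change (g.1 * h.1) i j = _
    rw [Matrix.mul_apply, Fin.sum_univ_three]
  change ‖(g * h).1 i j‖ ≤ _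
  rw [e]
  have hb : ∀ l, ‖g.1 i l * h.1 l j‖ ≤ nm g * nm h := fun l => by
    rw [norm_mul]
    exact mul_le_mul (entry_le_nm g i l) (entry_le_nm h l j) (norm_nonneg _) (nm_nonneg g)
  calc _ ≤ ‖g.1 i 0 * h.1 0 j‖ + ‖g.1 i 1 * h.1 1 j‖ + ‖g.1 i 2 * h.1 2 j‖ := norm_add₃_le
    _ ≤ nm g * nm h + nm g * nm h + nm g * nm h := by
        gcongr
        · exact hb 0
        · exact hb 1
        · exact hb 2
    _ = 3 * nm g * nm h := by ring

/-- the elements of size at most `J` -/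
def DJ {Γ : Type} [Group Γ] (q : Γ →* G3 k) (J : ℕ) : Set Γ :=
  {γ | 3 * nm (q γ) ≤ Real.exp J ∧ 3 * nm (q γ)⁻¹ ≤ Real.exp J}

theorem flt_DJ {Γ : Type} [Group Γ] (q : Γ →* G3 k) : Flt (DJ q) where
  mono J J' hJ γ hγ := by
    have h1 : Real.exp J ≤ Real.exp J' := Real.exp_le_exp.2 (by exact_mod_cast hJ)
    exact ⟨hγ.1.trans h1, hγ.2.trans h1⟩
  mul := by
    intro a b J J' ha hb
    have e : Real.exp ((J + J' : ℕ) : ℝ) = Real.exp J * Real.exp J' := by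
      rw [Nat.cast_add, Real.exp_add]
    have key : ∀ (x y : G3 k) (s t : ℝ), 3 * nm x ≤ s → 3 * nm y ≤ t → 3 * nm (x * y) ≤ s * t := by
      intro x y s t hx hy
      have h1 := nm_mul x y
      have h2 : (3 * nm x) * (3 * nm y) ≤ s * t :=
        mul_le_mul hx hy (by have := nm_nonneg y; positivity)
          ((by have := nm_nonneg x; positivity : (0 : ℝ) ≤ 3 * nm x).trans hx)
      calc 3 * nm (x * y) ≤ 3 * (3 * nm x * nm y) := by gcongr
        _ = (3 * nm x) * (3 * nm y) := by ring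
        _ ≤ s * t := h2
    refine ⟨?_, ?_⟩
    · rw [map_mul, e]; exact key _ _ _ _ ha.1 hb.1
    · rw [map_mul, mul_inv_rev, e, mul_comm (Real.exp (J : ℝ))]; exact key _ _ _ _ hb.2 ha.2
  inv := by
    intro a J ha
    refine ⟨?_, ?_⟩
    · rw [map_inv]; exact ha.2
    · rw [map_inv, inv_inv]; exact ha.1
  ex := by
    intro a
    obtain ⟨J, hJ⟩ := exists_nat_gt (max (3 * nm (q a)) (3 * nm (q a)⁻¹))
    refine ⟨J, ?_, ?_⟩
    · have h1 := (le_max_left _ _).trans hJ.le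
      have h2 := Real.add_one_le_exp (J : ℝ)
      linarith
    · have h1 := (le_max_right _ _).trans hJ.le
      have h2 := Real.add_one_le_exp (J : ℝ)
      linarith

/-- Elements outside the ball of radius `exp J` are not in `DJ q J`. -/
theorem not_DJ {Γ : Type} [Group Γ] {q : Γ →* G3 k} {J : ℕ} {γ : Γ}
    (h : Real.exp J < nm (q γ)) : γ ∉ DJ q J := by
  intro hγ
  have h1 := hγ.1
  have h2 := nm_nonneg (q γ)
  linarith

end nrm

/-! ### The gap hypothesis for conjugates -/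

section gap

variable {K : Type*} [NormedAddCommGroup K] [InnerProductSpace ℂ K] [CompleteSpace K]
  {H : Type*} [Group H] {π : H →* (K →L[ℂ] K)} {M : StarSubalgebra ℂ (K →L[ℂ] K)} {Ω : K}
  {F : ℕ → Submodule ℂ K}

/-- the hypothesis `gap` of the growth lemma -/
def Gap (π : H →* (K →L[ℂ] K)) (M : StarSubalgebra ℂ (K →L[ℂ] K)) (Ω : K) (a : H) : Prop :=
  ∀ η : ℝ, 0 < η → ∃ p : ℕ, 0 < p ∧ ∃ l : Fin p → H, (∀ i, Commute (l i) a) ∧
    ∀ x ∈ M, ‖x‖ ≤ 1 → ‖(((p : ℂ)⁻¹) • ∑ i, π (l i) * x * π (l i)⁻¹) Ω - ⟪Ω, x Ω⟫_ℂ • Ω‖ ≤ η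

theorem Gap.inv {a : H} (h : Gap π M Ω a) : Gap π M Ω a⁻¹ := fun η hη => by
  obtain ⟨p, hp, l, hl, hg⟩ := h η hη
  exact ⟨p, hp, l, fun i => (hl i).inv_right, hg⟩

theorem Gap.conj (D : H221.Gr.GrD π M Ω F) {a : H} (h : Gap π M Ω a) (g : H) :
    Gap π M Ω (g * a * g⁻¹) := fun η hη => by
  obtain ⟨p, hp, l, hl, hg⟩ := h η hη
  refine ⟨p, hp, fun i => g * l i * g⁻¹, fun i => ?_, fun x hx hx1 => ?_⟩
  · change g * l i * g⁻¹ * (g * a * g⁻¹) = g * a * g⁻¹ * (g * l i * g⁻¹)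
    have h1 : l i * a = a * l i := hl i
    calc g * l i * g⁻¹ * (g * a * g⁻¹) = g * (l i * a) * g⁻¹ := by group
      _ = g * (a * l i) * g⁻¹ := by rw [h1]
      _ = _ := by group
  · set y : K →L[ℂ] K := π g⁻¹ * x * π g with hy
    have hyM : y ∈ M := by
      have := D.Ad g⁻¹ x hx
      rwa [inv_inv] at this
    have hy1 : ‖y‖ ≤ 1 := by
      have := D.norm_Ad_le g⁻¹ x
      rw [inv_inv] at this
      exact this.trans hx1
    have hxy : x = π g * y * π g⁻¹ := by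
      rw [hy]
      calc x = (π g * π g⁻¹) * x * (π g * π g⁻¹) := by rw [D.pi_mul_inv, one_mul, mul_one]
        _ = _ := by simp only [mul_assoc]
    have hτ : ⟪Ω, x Ω⟫_ℂ = ⟪Ω, y Ω⟫_ℂ := by
      conv_lhs => rw [hxy]
      exact D.inv g y hyM
    set m : K →L[ℂ] K := ((p : ℂ)⁻¹) • ∑ i, π (l i) * y * π (l i)⁻¹ with hm
    have hmM : m ∈ M := by
      rw [hm]
      exact M.smul_mem (sum_mem fun i _ => D.Ad (l i) y hyM) _
    have e1 : ((p : ℂ)⁻¹) • ∑ i, π (g * l i * g⁻¹) * x * π (g * l i * g⁻¹)⁻¹ =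
        π g * m * π g⁻¹ := by
      rw [hm, mul_smul_comm, smul_mul_assoc, Finset.mul_sum, Finset.sum_mul]
      congr 1
      refine Finset.sum_congr rfl fun i _ => ?_
      have e2 : π (g * l i * g⁻¹)⁻¹ = π g * π (l i)⁻¹ * π g⁻¹ := by
        rw [← map_mul, ← map_mul]
        congr 1
        group
      rw [e2, map_mul, map_mul, hy]
      simp only [mul_assoc]
    have e3 : (π g * m * π g⁻¹) Ω - ⟪Ω, x Ω⟫_ℂ • Ω =
        (π g * (m - ⟪Ω, y Ω⟫_ℂ • (1 : K →L[ℂ] K)) * π g⁻¹) Ω := by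
      have e4 : π g * (⟪Ω, y Ω⟫_ℂ • (1 : K →L[ℂ] K)) * π g⁻¹ = ⟪Ω, y Ω⟫_ℂ • (1 : K →L[ℂ] K) := by
        rw [mul_smul_comm, smul_mul_assoc, mul_one, D.pi_mul_inv]
      rw [mul_sub, sub_mul, e4, hτ]
      rfl
    change ‖(((p : ℂ)⁻¹) • ∑ i, π (g * l i * g⁻¹) * x * π (g * l i * g⁻¹)⁻¹) Ω -
      ⟪Ω, x Ω⟫_ℂ • Ω‖ ≤ η
    rw [e1, e3, D.norm_Ad (sub_mem hmM (M.smul_mem (one_mem _) _))]
    exact hg y hyM hy1

end gap

/-! ### The link with the multiplication operators -/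

section link

variable {X : Type} [MeasurableSpace X] {ν : Measure X}
  {H : Type} [NormedAddCommGroup H] [InnerProductSpace ℂ H] [CompleteSpace H]

theorem m0_eq_zero {I Γ : Type} (b : HilbertBasis I ℂ H) (f : I → Γ) {S : Set Γ} {u : H}
    (h : ∀ i, f i ∈ S → ⟪b i, u⟫_ℂ = 0) : m0 b f S u = 0 := by
  refine (Submodule.starProjection_apply_eq_zero_iff _).2 ?_
  rw [Submodule.orthogonal_closure, Submodule.mem_orthogonal]
  intro v hv
  refine Submodule.span_induction (p := fun v _ => ⟪v, u⟫_ℂ = 0) ?_ (inner_zero_left _) ?_ ?_ hv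
  · rintro _ ⟨j, hj, rfl⟩
    exact h j hj
  · intro x y _ _ hx hy
    rw [inner_add_left, hx, hy, add_zero]
  · intro c x _ hx
    rw [inner_smul_left, hx, mul_zero]

theorem mm_eq_zero {I Γ : Type} [Countable I] (b : HilbertBasis I ℂ H) (f : I → Γ) {S : Set Γ}
    {ξ : Lp H 2 ν} (h : ∀ i, f i ∈ S → ∀ᵐ x ∂ν, ⟪b i, ξ x⟫_ℂ = 0) : mm ν b f S ξ = 0 := by
  have h1 : ∀ᵐ x ∂ν, ∀ i, f i ∈ S → ⟪b i, ξ x⟫_ℂ = 0 := by
    rw [ae_all_iff]
    intro i
    by_cases hi : f i ∈ S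
    · filter_upwards [h i hi] with x hx _
      exact hx
    · exact Eventually.of_forall fun x hx => absurd hx hi
  refine Lp.ext ?_
  filter_upwards [H790.fld_comp (μ := ν) (m0 b f S) ξ, h1, Lp.coeFn_zero H 2 ν] with x h2 h3 h4
  rw [mm, h2, h4, m0_eq_zero b f h3]
  rfl

/-- **The link.** -/
theorem link {Γ Γ₂ : Type} [Group Γ] [Group Γ₂] [Countable Γ] [Countable Γ₂]
    {k : Type} [NontriviallyNormedField k] (q : Γ →* G3 k)
    (b : HilbertBasis (Γ × Γ₂) ℂ H) {ρ : Γ × Γ₂ →* (H →L[ℂ] H)} {ω : H}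
    (hb : ∀ p, b p = ρ p ω) (J : ℕ) {v : Lp H 2 ν}
    (hv : v ∈ SzV ν ρ ω ((MonoidHom.fst Γ Γ₂) ⁻¹' DJ q J)) :
    mm ν b Prod.fst {γ | Real.exp J < nm (q γ)} v = 0 := by
  refine mm_eq_zero b Prod.fst fun i hi => ?_
  rw [hb]
  exact mem_SzV.1 hv i fun h => not_DJ hi h

end link

end Vale.Agent.P092.H725
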