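import Vale.Agent.P092.H725.SizeG
import Vale.Agent.P092.H34.Irr

/-!
P092 (helper725), team D: `SD.SIZE` and the sizes at the times `2 ^ j` for the frame model
(`H34/PicD`), both legs, any homomorphism `q : Γ →* SL_3(ℝ)`, and the dual forms.
-/

set_option linter.all false

open scoped InnerProductSpace ENNReal
open Set Filter Topology MeasureTheory ContinuousLinearMap

namespace Vale.Agent.P092.H725

open Vale.Agent.P092.H160 Vale.Agent.P092.H933 Vale.Agent.P092.H368 Vale.Agent.P092.H103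
open Vale.Agent.P092.SD Vale.Agent.P092.SR Vale.Agent.P092.H839
open Vale.Agent.P092.RC (Cm KK pic lam₁ lam₂ XX Om)

section rep

variable {G G' H : Type} [Group G] [Group G'] [NormedAddCommGroup H] [InnerProductSpace ℂ H]
  [CompleteSpace H] {ρ : G →* (H →L[ℂ] H)} {ω : H}

theorem regRep_comp (h : RegRep ρ ω) (e : G' ≃* G) : RegRep (ρ.comp e.toMonoidHom) ω where
  adj g := by
    change adjoint (ρ (e g)) = ρ (e g⁻¹)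
    rw [h.adj, map_inv e g]
  norm_one := h.norm_one
  inner_zero g hg := h.inner_zero (e g) fun h1 => hg (by
    have := congrArg e.symm h1
    rwa [map_one, MulEquiv.symm_apply_apply] at this)
  total v hv := h.total v fun g => by
    have h1 := hv (e.symm g)
    change ⟪ρ (e (e.symm g)) ω, v⟫_ℂ = 0 at h1
    rwa [MulEquiv.apply_symm_apply] at h1

end rep

section model

variable {Γ Λ : Type} [Group Γ] [Group Λ] {α : Γ →* (Ell2 Λ →L[ℂ] Ell2 Λ)}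

/-- the targets, second leg first -/
noncomputable def RRs (α : Γ →* (Ell2 Λ →L[ℂ] Ell2 Λ)) :
    Γ × Γ →* (Ell2 (Λ × Λ) →L[ℂ] Ell2 (Λ × Λ)) :=
  (RR α).comp (MulEquiv.prodComm : Γ × Γ ≃* Γ × Γ).toMonoidHom

theorem RRs_eq (g h : Γ) : RRs α (g, h) = RR₂ α g * RR₁ α h := by
  change RR α (h, g) = _
  rw [RR_eq, comm_RR]

theorem regRep_RRs (hα : Frame α) : RegRep (RRs α) (dl 1) := regRep_comp (regRep_RR hα) _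

theorem cmm_RR_VV (hα : Frame α) (v : Γ) : Cmm (RR α) (VV α v) := by
  rintro ⟨g, h⟩
  rw [RR_eq, ← mul_assoc, comm_VV₁ hα, mul_assoc, comm_VV₂ hα, mul_assoc]

theorem cmm_RRs_VV (hα : Frame α) (v : Γ) : Cmm (RRs α) (VV α v) := fun p =>
  cmm_RR_VV hα v _

theorem irr_RR (hα : Frame α) (hΛ : ∀ s : Λ, s ≠ 1 → Set.Infinite {y : Λ | ∃ h, y = h * s * h⁻¹})
    (A : Ell2 (Λ × Λ) →L[ℂ] Ell2 (Λ × Λ)) (h1 : Cmm (RR α) A) (h2 : Cmm (VV α) A) :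
    ∃ c : ℂ, A = c • (1 : Ell2 (Λ × Λ) →L[ℂ] Ell2 (Λ × Λ)) :=
  H34.Irr.hirr hα hΛ (fun g => by rw [RR₁_of_RR]; exact h1 _)
    (fun g => by rw [RR₂_of_RR]; exact h1 _) h2

theorem irr_RRs (hα : Frame α)
    (hΛ : ∀ s : Λ, s ≠ 1 → Set.Infinite {y : Λ | ∃ h, y = h * s * h⁻¹})
    (A : Ell2 (Λ × Λ) →L[ℂ] Ell2 (Λ × Λ)) (h1 : Cmm (RRs α) A) (h2 : Cmm (VV α) A) :
    ∃ c : ℂ, A = c • (1 : Ell2 (Λ × Λ) →L[ℂ] Ell2 (Λ × Λ)) :=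
  irr_RR hα hΛ A (fun p => by
    have := h1 (p.2, p.1)
    exact this) h2

end model

section size

variable [LocallyCompactSpace (G3 ℝ)] [SecondCountableTopology (G3 ℝ)]
  [MeasurableSpace (G3 ℝ)] [BorelSpace (G3 ℝ)] {Γ : Subgroup (G3 ℝ)} [DiscreteTopology Γ]
  [Countable Γ] [MeasurableSpace (G3 ℝ ⧸ Γ)] [BorelSpace (G3 ℝ ⧸ Γ)]
  {ν : Measure (G3 ℝ ⧸ Γ)} [IsProbabilityMeasure ν]
  (hν : ∀ g : G3 ℝ, ν.map (fun x => g • x) = ν)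
  {Λ : Type} [Group Λ] {α : Γ →* (Ell2 Λ →L[ℂ] Ell2 Λ)} (hα : Frame α)
  (hΛ : ∀ s : Λ, s ≠ 1 → Set.Infinite {y : Λ | ∃ h, y = h * s * h⁻¹})
  {lam : Γ →* (KK ν Λ →L[ℂ] KK ν Λ)} {W : Set (KK ν Λ →L[ℂ] KK ν Λ)}
  (b : HilbertBasis (Γ × Γ) ℂ (Ell2 (Λ × Λ)))

include hΛ

theorem size₁ (hb : ∀ γ s, b (γ, s) = RR₁ α γ (RR₂ α s (dl 1)))
    (hM : Ms lam W (Om ν Λ) (mm ν b Prod.fst)) (w : ℝˣ) (q : Γ →* G3 ℝ) :
    SIZE w (pic hν hα) (Om ν Λ) (mm ν b Prod.fst) q :=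
  size_lp hν (regRep_RR hα) (adj_VV hα) (cmm_RR_VV hα) (irr_RR hα hΛ) b
    (by rintro ⟨g, h⟩; rw [hb, RR_eq]; rfl) q hM w

theorem size₁_dual (hb : ∀ γ s, b (γ, s) = RR₁ α γ (RR₂ α s (dl 1)))
    (hM : Ms lam W (Om ν Λ) (mm ν b Prod.fst)) (w : ℝˣ) (q : Γ →* G3 ℝ) :
    SIZE w ((pic hν hα).comp (tau ℝ)) (Om ν Λ) (mm ν b Prod.fst) ((tau ℝ).comp q) :=
  size_lp_dual hν (regRep_RR hα) (adj_VV hα) (cmm_RR_VV hα) (irr_RR hα hΛ) b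
    (by rintro ⟨g, h⟩; rw [hb, RR_eq]; rfl) q hM w

theorem size₂ (hb : ∀ γ s, b (γ, s) = RR₂ α γ (RR₁ α s (dl 1)))
    (hM : Ms lam W (Om ν Λ) (mm ν b Prod.fst)) (w : ℝˣ) (q : Γ →* G3 ℝ) :
    SIZE w (pic hν hα) (Om ν Λ) (mm ν b Prod.fst) q :=
  size_lp hν (regRep_RRs hα) (adj_VV hα) (cmm_RRs_VV hα) (irr_RRs hα hΛ) b
    (by rintro ⟨g, h⟩; rw [hb, RRs_eq]; rfl) q hM w

theorem size₂_dual (hb : ∀ γ s, b (γ, s) = RR₂ α γ (RR₁ α s (dl 1)))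
    (hM : Ms lam W (Om ν Λ) (mm ν b Prod.fst)) (w : ℝˣ) (q : Γ →* G3 ℝ) :
    SIZE w ((pic hν hα).comp (tau ℝ)) (Om ν Λ) (mm ν b Prod.fst) ((tau ℝ).comp q) :=
  size_lp_dual hν (regRep_RRs hα) (adj_VV hα) (cmm_RRs_VV hα) (irr_RRs hα hΛ) b
    (by rintro ⟨g, h⟩; rw [hb, RRs_eq]; rfl) q hM w

theorem size8₁ (hb : ∀ γ s, b (γ, s) = RR₁ α γ (RR₂ α s (dl 1)))
    (hM : Ms lam W (Om ν Λ) (mm ν b Prod.fst)) (w : ℝˣ) (q : Γ →* G3 ℝ) :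
    ∀ g : G3 ℝ, ∀ ε > 0, ∃ c : ℝ, ∀ j : ℕ,
      ‖mm ν b Prod.fst {γ | c * 8 ^ j < Real.log (nm (q γ))}
        (pic hν hα (g * bw w ^ (2 ^ j) * g⁻¹)⁻¹ (Om ν Λ))‖ ≤ ε :=
  size8_lp hν (regRep_RR hα) (adj_VV hα) (cmm_RR_VV hα) (irr_RR hα hΛ) b
    (by rintro ⟨g, h⟩; rw [hb, RR_eq]; rfl) q hM w

theorem size8₂ (hb : ∀ γ s, b (γ, s) = RR₂ α γ (RR₁ α s (dl 1)))
    (hM : Ms lam W (Om ν Λ) (mm ν b Prod.fst)) (w : ℝˣ) (q : Γ →* G3 ℝ) :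
    ∀ g : G3 ℝ, ∀ ε > 0, ∃ c : ℝ, ∀ j : ℕ,
      ‖mm ν b Prod.fst {γ | c * 8 ^ j < Real.log (nm (q γ))}
        (pic hν hα (g * bw w ^ (2 ^ j) * g⁻¹)⁻¹ (Om ν Λ))‖ ≤ ε :=
  size8_lp hν (regRep_RRs hα) (adj_VV hα) (cmm_RRs_VV hα) (irr_RRs hα hΛ) b
    (by rintro ⟨g, h⟩; rw [hb, RRs_eq]; rfl) q hM w

end size

end Vale.Agent.P092.H725
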