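import Vale.Agent.P092.H34.Ind
import Vale.Agent.P092.H132.Jop
import Vale.Agent.P092.H967.Kaplansky

/-!
P092 (helper725), team D, [Kap] of [D-GL-IND]: in the induced picture `L²(X; 𝓗)` the operator of one
group element `l` is approximated, in the tracial vector, by contractions with coefficients in the
algebra spanned by finitely many `L a` (Kaplansky density with coefficients).
-/

set_option linter.all false

open scoped InnerProductSpace ENNReal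
open MeasureTheory Filter Topology ContinuousLinearMap

namespace Vale.Agent.P092.H725

open Vale.Agent.P092.H790 Vale.Agent.P092.H160 Vale.Agent.P092.H132

/-! ### The fibre -/

section alg

variable {Γ 𝓗 : Type} [Group Γ] [NormedAddCommGroup 𝓗] [InnerProductSpace ℂ 𝓗] [CompleteSpace 𝓗]
  {ρ : Γ →* (𝓗 →L[ℂ] 𝓗)} {ω : 𝓗}

/-- The commutant of a unitary representation. -/
noncomputable def cmA (h : RegRep ρ ω) : StarSubalgebra ℂ (𝓗 →L[ℂ] 𝓗) :=
  StarSubalgebra.centralizer ℂ (Set.range ρ)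

theorem mem_cmA (h : RegRep ρ ω) {A : 𝓗 →L[ℂ] 𝓗} : A ∈ cmA h ↔ Cmm ρ A := by
  rw [cmA, StarSubalgebra.mem_centralizer_iff]
  constructor
  · intro hA g
    exact ((hA (ρ g) ⟨g, rfl⟩).1).symm
  · rintro hA _ ⟨g, rfl⟩
    refine ⟨(hA g).symm, ?_⟩
    rw [star_eq_adjoint, h.adj]
    exact (hA g⁻¹).symm

theorem isClosed_cmA (h : RegRep ρ ω) : IsClosed (cmA h : Set (𝓗 →L[ℂ] 𝓗)) := by
  have e : (cmA h : Set (𝓗 →L[ℂ] 𝓗)) = ⋂ g, {A | A * ρ g = ρ g * A} := by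
    ext A
    simp only [Set.mem_iInter, Set.mem_setOf_eq]
    exact mem_cmA h
  rw [e]
  refine isClosed_iInter fun g => isClosed_eq ?_ ?_
  · exact continuous_id.mul continuous_const
  · exact continuous_const.mul continuous_id

/-- The span of the operators `L a = J ρ(a) J`. -/
noncomputable def spA (h : RegRep ρ ω) : StarSubalgebra ℂ (𝓗 →L[ℂ] 𝓗) where
  carrier := Submodule.span ℂ (Set.range (jrep h ρ))
  add_mem' := fun ha hb => Submodule.add_mem _ ha hb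
  zero_mem' := Submodule.zero_mem _
  mul_mem' := by
    intro a b ha hb
    have h1 : a * b ∈ Submodule.span ℂ (Set.range (jrep h ρ)) *
      Submodule.span ℂ (Set.range (jrep h ρ)) := Submodule.mul_mem_mul ha hb
    rw [Submodule.span_mul_span] at h1
    refine Submodule.span_mono ?_ h1
    rintro _ ⟨_, ⟨x, rfl⟩, _, ⟨y, rfl⟩, rfl⟩
    exact ⟨x * y, map_mul _ _ _⟩
  one_mem' := Submodule.subset_span ⟨1, map_one _⟩
  algebraMap_mem' := by
    intro c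
    rw [Algebra.algebraMap_eq_smul_one]
    exact Submodule.smul_mem _ _ (Submodule.subset_span ⟨1, map_one _⟩)
  star_mem' := by
    intro a ha
    refine Submodule.span_induction (p := fun a _ => star a ∈
      Submodule.span ℂ (Set.range (jrep h ρ))) ?_ ?_ ?_ ?_ ha
    · rintro _ ⟨x, rfl⟩
      rw [star_eq_adjoint, (regRep_jrep h).adj]
      exact Submodule.subset_span ⟨_, rfl⟩
    · rw [star_zero]; exact Submodule.zero_mem _
    · intro x y _ _ hx hy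
      rw [star_add]; exact Submodule.add_mem _ hx hy
    · intro c x _ hx
      rw [star_smul]; exact Submodule.smul_mem _ _ hx

theorem mem_spA (h : RegRep ρ ω) {A : 𝓗 →L[ℂ] 𝓗} :
    A ∈ spA h ↔ A ∈ Submodule.span ℂ (Set.range (jrep h ρ)) := Iff.rfl

theorem spA_le (h : RegRep ρ ω) : spA h ≤ cmA h := by
  intro A hA
  rw [mem_spA] at hA
  refine Submodule.span_induction (p := fun a _ => a ∈ cmA h) ?_ ?_ ?_ ?_ hA
  · rintro _ ⟨x, rfl⟩
    exact (mem_cmA h).2 (jrep_cmm h x)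
  · exact zero_mem _
  · intro x y _ _ hx hy
    exact add_mem hx hy
  · intro c x _ hx
    exact SMulMemClass.smul_mem _ hx

/-- Every vector is approximated by `x ω`, `x` in the span of the `L a`. -/
theorem exists_near (h : RegRep ρ ω) (u : 𝓗) {ε : ℝ} (hε : 0 < ε) :
    ∃ x ∈ spA h, ‖x ω - u‖ ≤ ε := by
  have h1 := h.basis.dense_span
  have h2 : u ∈ closure ((Submodule.span ℂ (Set.range h.basis) : Submodule ℂ 𝓗) : Set 𝓗) := by
    rw [← Submodule.topologicalClosure_coe, h1]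
    trivial
  obtain ⟨y, hy, hd⟩ := Metric.mem_closure_iff.1 h2 ε hε
  have h3 : (Submodule.span ℂ (Set.range h.basis) : Submodule ℂ 𝓗) =
      Submodule.map ((ContinuousLinearMap.apply ℂ 𝓗 ω : (𝓗 →L[ℂ] 𝓗) →L[ℂ] 𝓗) :
        (𝓗 →L[ℂ] 𝓗) →ₗ[ℂ] 𝓗) (Submodule.span ℂ (Set.range (jrep h ρ))) := by
    rw [Submodule.map_span]
    congr 1
    ext v
    constructor
    · rintro ⟨g, rfl⟩
      refine ⟨jrep h ρ g⁻¹, ⟨_, rfl⟩, ?_⟩
      change jrep h ρ g⁻¹ ω = _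
      rw [jrep_omega, inv_inv, h.basis_apply]
    · rintro ⟨_, ⟨g, rfl⟩, rfl⟩
      refine ⟨g⁻¹, ?_⟩
      change _ = jrep h ρ g ω
      rw [jrep_omega, h.basis_apply]
  rw [SetLike.mem_coe, h3] at hy
  obtain ⟨x, hx, rfl⟩ := hy
  refine ⟨x, hx, ?_⟩
  rw [← dist_eq_norm, dist_comm]
  exact hd.le

/-- **Kaplansky density in the fibre.** -/
theorem fib (h : RegRep ρ ω) {U : 𝓗 →L[ℂ] 𝓗} (hU : Cmm ρ U) (hu : U * adjoint U = 1) {ε : ℝ}
    (hε : 0 < ε) : ∃ y ∈ spA h, ‖y‖ ≤ 1 ∧ ‖y ω - U ω‖ ≤ ε :=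
  H967.kaplansky_unitary (cmA h) (spA h) (isClosed_cmA h) (spA_le h) ω
    (fun a ha b hb => h.trace_comm ((mem_cmA h).1 ha) ((mem_cmA h).1 hb)) U ((mem_cmA h).2 hU)
    (by rw [star_eq_adjoint]; exact hu) (fun δ hδ => exists_near h _ hδ) ε hε

/-- In the commutant `‖a b ω‖ ≤ ‖b‖ ‖a ω‖`. -/
theorem nrm_le (h : RegRep ρ ω) {a b : 𝓗 →L[ℂ] 𝓗} (ha : Cmm ρ a) (hb : Cmm ρ b) :
    ‖a (b ω)‖ ≤ ‖b‖ * ‖a ω‖ :=
  H967.norm_mul_le_of_trace (cmA h) ω
    (fun a ha b hb => h.trace_comm ((mem_cmA h).1 ha) ((mem_cmA h).1 hb))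
    ((mem_cmA h).2 ha) ((mem_cmA h).2 hb)

theorem exists_finset (h : RegRep ρ ω) {y : 𝓗 →L[ℂ] 𝓗} (hy : y ∈ spA h) :
    ∃ F : Finset Γ, y ∈ Submodule.span ℂ (jrep h ρ '' (F : Set Γ)) := by
  rw [mem_spA, Finsupp.mem_span_range_iff_exists_finsupp] at hy
  obtain ⟨c, rfl⟩ := hy
  refine ⟨c.support, ?_⟩
  refine Submodule.sum_mem _ fun a ha => Submodule.smul_mem _ _ (Submodule.subset_span ⟨a, ?_, rfl⟩)
  exact ha

end alg

/-! ### The induced picture -/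

section ind

variable {D Λ Γ : Type} [Group D] [Group Λ] [Countable Λ] [Group Γ] (d : CData D Λ) {𝓗 : Type}
  [NormedAddCommGroup 𝓗] [InnerProductSpace ℂ 𝓗] [CompleteSpace 𝓗]
  {V : Λ →* (𝓗 →L[ℂ] 𝓗)} {ρ : Γ →* (𝓗 →L[ℂ] 𝓗)} {ω : 𝓗}

/-- Up to small measure the cocycle of `l` has finitely many values. -/
theorem exists_vals (l : D) {δ : ℝ} (hδ : 0 < δ) :
    ∃ F : Finset Λ, d.μ.real {x | d.c l (d.act l⁻¹ x) ∉ F} ≤ δ := by
  classical
  set k : d.X → Λ := fun x => d.c l (d.act l⁻¹ x) with hk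
  have hkm : ∀ v, MeasurableSet {x | k x = v} := fun v => (d.mp l⁻¹).measurable (d.c_meas l v)
  have hsum : ∑' v, d.μ {x | k x = v} ≠ ∞ := by
    have hdis : Pairwise (Function.onFun Disjoint fun v => {x | k x = v}) := by
      intro v w hvw
      refine Set.disjoint_left.2 fun x hx hx' => hvw ?_
      exact (hx : k x = v).symm.trans hx'
    rw [← measure_iUnion hdis hkm]
    exact measure_ne_top _ _
  have h1 := ENNReal.tendsto_tsum_compl_atTop_zero hsum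
  obtain ⟨F, hF⟩ := ((ENNReal.tendsto_nhds_zero.1 h1) (ENNReal.ofReal δ)
    (ENNReal.ofReal_pos.2 hδ)).exists
  refine ⟨F, ?_⟩
  have h2 : {x | k x ∉ F} ⊆ ⋃ v : {v // v ∉ F}, {x | k x = v} := by
    intro x hx
    exact Set.mem_iUnion.2 ⟨⟨k x, hx⟩, rfl⟩
  have h3 : d.μ {x | k x ∉ F} ≤ ENNReal.ofReal δ :=
    (measure_mono h2).trans ((measure_iUnion_le _).trans hF)
  exact ENNReal.toReal_le_of_le_ofReal hδ.le h3

variable (hV : ∀ v, adjoint (V v) = V v⁻¹)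

/-- The field of `T π(l)⁻¹`, `T` = the field `z` of the cocycle of `l` composed with the
translation. -/
theorem fld_ri_pi {z : Λ → 𝓗 →L[ℂ] 𝓗} (hz : ∀ v, ‖z v‖ ≤ 1) (l : D) :
    Fld (Ri d z l * H34.Ind.pi d hV l⁻¹) (fun x => z (d.c l (d.act l⁻¹ x)) *
      V (d.c l (d.act l⁻¹ x))⁻¹) := by
  intro ξ
  have h2 := ri_ae d hz l (H34.Ind.pi d hV l⁻¹ ξ)
  have h3 := ae_comp (d.mp l⁻¹) (ri_ae d (H34.Ind.norm_le_of_adj hV) l⁻¹ ξ)
  filter_upwards [h2, h3] with x a2 a3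
  change (Ri d z l (H34.Ind.pi d hV l⁻¹ ξ)) x = _
  have a3' : (H34.Ind.pi d hV l⁻¹ ξ) (d.act l⁻¹ x) =
      V (d.c l⁻¹ (d.act (l⁻¹)⁻¹ (d.act l⁻¹ x))) (ξ (d.act (l⁻¹)⁻¹ (d.act l⁻¹ x))) := a3
  rw [a2, a3', inv_inv, act_inv]
  have e1 : d.c l⁻¹ x = (d.c l (d.act l⁻¹ x))⁻¹ := by
    have := c_inv d l (d.act l⁻¹ x)
    rwa [act_inv] at this
  rw [e1]
  rfl

/-- **[Kap]** For every `l : D` and `ε > 0` there is `T = Ri d z l`, `‖T‖ ≤ 1`, with coefficients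
`z v` in the span of the `L a`, `a` in a finite set `F`, and `‖T π(l)⁻¹ Ω - Ω‖ ≤ ε`. -/
theorem kap (h : RegRep ρ ω) (hc : ∀ v, Cmm ρ (V v)) (l : D) {ε : ℝ} (hε : 0 < ε) :
    ∃ (F : Finset Γ) (z : Λ → 𝓗 →L[ℂ] 𝓗),
      (∀ v, z v ∈ Submodule.span ℂ (jrep h ρ '' (F : Set Γ))) ∧ (∀ v, ‖z v‖ ≤ 1) ∧
      ‖Ri d z l (H34.Ind.pi d hV l⁻¹ (Lp.const 2 d.μ ω)) - Lp.const 2 d.μ ω‖ ≤ ε := by
  classical
  obtain ⟨F₀, hF₀⟩ := exists_vals d l (δ := ε ^ 2 / 2) (by positivity)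
  have hVu : ∀ v, V v * adjoint (V v) = 1 := fun v => by
    rw [hV, ← map_mul, mul_inv_cancel, map_one]
  have hch : ∀ v, ∃ y ∈ spA h, ‖y‖ ≤ 1 ∧ ‖y ω - V v ω‖ ≤ ε / 2 := fun v =>
    fib h (hc v) (hVu v) (by positivity)
  choose y hyS hy1 hyε using hch
  have hfs : ∀ v, ∃ F : Finset Γ, y v ∈ Submodule.span ℂ (jrep h ρ '' (F : Set Γ)) := fun v =>
    exists_finset h (hyS v)
  choose G hG using hfs
  set z : Λ → 𝓗 →L[ℂ] 𝓗 := fun v => if v ∈ F₀ then y v else 0 with hzdef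
  have hz1 : ∀ v, ‖z v‖ ≤ 1 := by
    intro v
    by_cases hv : v ∈ F₀
    · simp only [hzdef, if_pos hv]; exact hy1 v
    · simp only [hzdef, if_neg hv, norm_zero]; exact zero_le_one
  refine ⟨F₀.biUnion G, z, ?_, hz1, ?_⟩
  · intro v
    by_cases hv : v ∈ F₀
    · simp only [hzdef, if_pos hv]
      refine Submodule.span_mono ?_ (hG v)
      refine Set.image_mono ?_
      intro a ha
      rw [Finset.mem_coe, Finset.mem_biUnion]
      exact ⟨v, hv, ha⟩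
    · simp only [hzdef, if_neg hv]; exact Submodule.zero_mem _
  · set ζ : Lp 𝓗 2 d.μ := Ri d z l (H34.Ind.pi d hV l⁻¹ (Lp.const 2 d.μ ω)) - Lp.const 2 d.μ ω
      with hζ
    have hpt : ∀ v, ‖(z v * V v⁻¹) ω - ω‖ ≤ if v ∈ F₀ then ε / 2 else 1 := by
      intro v
      by_cases hv : v ∈ F₀
      · simp only [hzdef, if_pos hv]
        have hyc : Cmm ρ (y v) := (mem_cmA h).1 (spA_le h (hyS v))
        have e1 : (y v * V v⁻¹) ω - ω = (y v - V v) (V v⁻¹ ω) := by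
          rw [sub_apply, ← mul_ap (V v), ← map_mul, mul_inv_cancel, map_one]
          rfl
        rw [e1]
        refine (nrm_le h (hyc.sub (hc v)) (hc v⁻¹)).trans ?_
        have h1 : ‖V v⁻¹‖ ≤ 1 := H34.Ind.norm_le_of_adj hV _
        calc ‖V v⁻¹‖ * ‖(y v - V v) ω‖ ≤ 1 * (ε / 2) :=
              mul_le_mul h1 (hyε v) (norm_nonneg _) zero_le_one
          _ = ε / 2 := one_mul _
      · simp only [hzdef, if_neg hv, zero_mul]
        rw [ContinuousLinearMap.zero_apply, zero_sub, norm_neg, h.norm_one]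
    have hae : ∀ᵐ x ∂d.μ, ‖ζ x‖ ^ 2 ≤ (ε / 2) ^ 2 +
        {x | d.c l (d.act l⁻¹ x) ∉ F₀}.indicator (fun _ => (1 : ℝ)) x := by
      filter_upwards [fld_ri_pi d hV hz1 l (Lp.const 2 d.μ ω),
        Lp.coeFn_sub (Ri d z l (H34.Ind.pi d hV l⁻¹ (Lp.const 2 d.μ ω))) (Lp.const 2 d.μ ω),
        Lp.coeFn_const (p := 2) (μ := d.μ) ω] with x h1 h2 h3
      have e1 : ζ x = (z (d.c l (d.act l⁻¹ x)) * V (d.c l (d.act l⁻¹ x))⁻¹) ω - ω := by
        rw [hζ, h2, Pi.sub_apply, h3]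
        change (Ri d z l * H34.Ind.pi d hV l⁻¹) (Lp.const 2 d.μ ω) x - ω = _
        rw [h1, h3]
        rfl
      rw [e1]
      have h4 := hpt (d.c l (d.act l⁻¹ x))
      by_cases hv : d.c l (d.act l⁻¹ x) ∈ F₀
      · rw [if_pos hv] at h4
        rw [Set.indicator_of_notMem (by simpa using hv), add_zero]
        exact pow_le_pow_left₀ (norm_nonneg _) h4 2
      · rw [if_neg hv] at h4
        rw [Set.indicator_of_mem (by simpa using hv)]
        have h5 := pow_le_pow_left₀ (norm_nonneg _) h4 2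
        have h6 : (0 : ℝ) ≤ (ε / 2) ^ 2 := by positivity
        linarith
    have hkm : MeasurableSet {x | d.c l (d.act l⁻¹ x) ∉ F₀} := by
      have e : {x | d.c l (d.act l⁻¹ x) ∉ F₀} = (⋃ v ∈ F₀, {x | d.c l (d.act l⁻¹ x) = v})ᶜ := by
        ext x
        simp
      rw [e]
      exact (Finset.measurableSet_biUnion _ fun v _ =>
        (d.mp l⁻¹).measurable (d.c_meas l v)).compl
    have hsq : ‖ζ‖ ^ 2 = ∫ x, ‖ζ x‖ ^ 2 ∂d.μ := by
      have h1 := H34.norm_ind_sq (μ := d.μ) MeasurableSet.univ ζ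
      rw [ind_univ, Measure.restrict_univ] at h1
      exact h1
    have hle : ‖ζ‖ ^ 2 ≤ ε ^ 2 := by
      rw [hsq]
      have hint : Integrable (fun x => (ε / 2) ^ 2 +
          {x | d.c l (d.act l⁻¹ x) ∉ F₀}.indicator (fun _ => (1 : ℝ)) x) d.μ :=
        (integrable_const _).add ((integrable_const _).indicator hkm)
      calc ∫ x, ‖ζ x‖ ^ 2 ∂d.μ ≤ ∫ x, (ε / 2) ^ 2 +
            {x | d.c l (d.act l⁻¹ x) ∉ F₀}.indicator (fun _ => (1 : ℝ)) x ∂d.μ :=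
            integral_mono_ae ((Lp.memLp ζ).integrable_norm_pow two_ne_zero) hint hae
        _ = (ε / 2) ^ 2 + d.μ.real {x | d.c l (d.act l⁻¹ x) ∉ F₀} := by
            rw [integral_add (integrable_const _) ((integrable_const _).indicator hkm),
              integral_indicator hkm, setIntegral_const, integral_const]
            simp
        _ ≤ ε ^ 2 := by nlinarith
    exact le_of_sq_le_sq hle hε.le

/-- Sandwiches of the fibre coefficients vanish. -/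
theorem ri_sand {z : Λ → 𝓗 →L[ℂ] 𝓗} (hz : ∀ v, ‖z v‖ ≤ 1) (l : D) {p q : 𝓗 →L[ℂ] 𝓗}
    (h : ∀ v, p * z v * q = 0) :
    p.compLpL 2 d.μ * Ri d z l * q.compLpL 2 d.μ = 0 := by
  have h1 : Ri d z l * q.compLpL 2 d.μ = xf d z l * q.compLpL 2 d.μ * kp d 𝓗 l := by
    rw [Ri, mul_assoc, kp_comp, mul_assoc]
  rw [mul_assoc, h1, ← mul_assoc, ← mul_assoc]
  have h2 : p.compLpL 2 d.μ * xf d z l * q.compLpL 2 d.μ = 0 := by
    refine (((fld_comp p).mul (fld_xf d hz l)).mul (fld_comp q)).ext fld_zero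
      (Eventually.of_forall fun x => ?_)
    exact h _
  rw [h2, zero_mul]

end ind

end Vale.Agent.P092.H725
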