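import Vale.Agent.P092.H725.Kap
import Vale.Agent.P092.H933.GLDef

/-!
P092 (helper725), team D: [Kap] of [D-GL-IND], the hypothesis `kap` of `H221.Gr.GrD.growth_vec` for
the picture `Lp K 2 ν` over `E ⧸ Λ`.
-/

set_option linter.all false

open scoped InnerProductSpace ENNReal
open Set Filter Topology MeasureTheory ContinuousLinearMap

namespace Vale.Agent.P092.H725

open Vale.Agent.P092.H790 Vale.Agent.P092.H85 Vale.Agent.P092.H160 Vale.Agent.P092.H103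
open Vale.Agent.P092.H132 Vale.Agent.P092.H933

theorem inner_span {Γ K : Type} [Group Γ] [NormedAddCommGroup K] [InnerProductSpace ℂ K]
    [CompleteSpace K] {ρ : Γ →* (K →L[ℂ] K)} {ω : K} (h : RegRep ρ ω) {F : Set Γ} {z : K →L[ℂ] K}
    (hz : z ∈ Submodule.span ℂ (jrep h ρ '' F)) {g : Γ} (hg : g⁻¹ ∉ F) : ⟪ρ g ω, z ω⟫_ℂ = 0 := by
  refine Submodule.span_induction (p := fun z _ => ⟪ρ g ω, z ω⟫_ℂ = 0) ?_ ?_ ?_ ?_ hz
  · rintro _ ⟨a, ha, rfl⟩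
    rw [jrep_omega, ← h.inner_zero (g⁻¹ * a⁻¹) ?_, h.inner_left, ← mul_ap, ← map_mul]
    intro h1
    refine hg ?_
    rw [mul_eq_one_iff_eq_inv, inv_inv] at h1
    rwa [h1]
  · rw [ContinuousLinearMap.zero_apply, inner_zero_right]
  · intro x y _ _ hx hy
    rw [ContinuousLinearMap.add_apply, inner_add_right, hx, hy, add_zero]
  · intro c x _ hx
    rw [ContinuousLinearMap.smul_apply, inner_smul_right, hx, mul_zero]

section gl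

variable {E : Type} [Group E] [TopologicalSpace E] [IsTopologicalGroup E] [LocallyCompactSpace E]
  [SecondCountableTopology E] [T2Space E] [MeasurableSpace E] [BorelSpace E]
  {Λ : Subgroup E} [DiscreteTopology Λ] [MeasurableSpace (E ⧸ Λ)] [BorelSpace (E ⧸ Λ)]
  {ν : Measure (E ⧸ Λ)} [IsProbabilityMeasure ν] (hν : ∀ g : E, ν.map (fun x => g • x) = ν)
  {Γ K : Type} [Group Γ] [NormedAddCommGroup K] [InnerProductSpace ℂ K] [CompleteSpace K]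
  {ρ : Γ →* (K →L[ℂ] K)} {ω : K} [Countable Λ] {V : Λ →* (K →L[ℂ] K)}

/-- **[Kap]**, the hypothesis `kap` of `H221.Gr.GrD.growth_vec`. -/
theorem kap_gl (h : RegRep ρ ω) (hVa : ∀ v, adjoint (V v) = V v⁻¹) (hc : ∀ v, Cmm ρ (V v))
    {D : ℕ → Set Γ} (hD : Flt D) (g : E) {ε : ℝ} (hε : 0 < ε) :
    ∃ J, ∃ Z ∈ H221.Gr.CC (irep hν hVa) (FinM ν h.adj) (Lp.const 2 ν ω)
      (fun J => SzV ν ρ ω (D J)) J g, ‖(Z - 1) (Lp.const 2 ν ω)‖ ≤ ε := by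
  obtain ⟨F, z, hz, hz1, hzε⟩ := kap (cdat ν hν) hVa h hc g hε
  -- a common size
  obtain ⟨J, hJ⟩ : ∃ J, ∀ a ∈ F, a⁻¹ ∈ D J := by
    choose j hj using fun a => hD.ex a⁻¹
    refine ⟨F.sup j, fun a ha => hD.mono (Finset.le_sup ha) (hj a)⟩
  have hzc : ∀ v, Cmm ρ (z v) := by
    intro v
    refine (mem_cmA h).1 (spA_le h ((mem_spA h).2 ?_))
    exact Submodule.span_mono (Set.image_subset_range _ _) (hz v)
  obtain ⟨R, hR⟩ : ∃ R : Lp K 2 ν →L[ℂ] Lp K 2 ν, R = Ri (cdat ν hν) z g := ⟨_, rfl⟩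
  have hR1 : ‖R‖ ≤ 1 := by
    rw [hR]; exact norm_ri_le (cdat ν hν) hz1 g
  have hRae : ∀ ξ : Lp K 2 ν, ⇑(R ξ) =ᵐ[ν] fun x => z (coc Λ g (g⁻¹ • x)) (ξ (g⁻¹ • x)) := by
    intro ξ
    rw [hR]; exact ri_ae (cdat ν hν) hz1 g ξ
  obtain ⟨Z, hZ⟩ : ∃ Z : Lp K 2 ν →L[ℂ] Lp K 2 ν, Z = R * irep hν hVa g⁻¹ := ⟨_, rfl⟩
  have hZf : Fld Z (fun x => z (coc Λ g (g⁻¹ • x)) * V (coc Λ g (g⁻¹ • x))⁻¹) := by
    rw [hZ, hR]; exact fld_ri_pi (cdat ν hν) hVa hz1 g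
  refine ⟨J, Z, ⟨⟨?_, ?_⟩, ?_, ?_⟩, ?_⟩
  · intro A hA
    exact hZf.ind hA
  · intro s
    refine (hZf.mul (fld_comp (ρ s))).ext ((fld_comp (ρ s)).mul hZf)
      (Eventually.of_forall fun x => ?_)
    exact ((hzc _).mul (hc _)) s
  · have h2 : ‖irep hν hVa g⁻¹‖ ≤ 1 :=
      norm_ri_le (cdat ν hν) (R := fun v => V v) (pi_norm_le hVa) g⁻¹
    rw [hZ]
    calc ‖R * irep hν hVa g⁻¹‖ ≤ ‖R‖ * ‖irep hν hVa g⁻¹‖ := norm_mul_le _ _
      _ ≤ 1 * 1 := mul_le_mul hR1 h2 (norm_nonneg _) zero_le_one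
      _ = 1 := one_mul 1
  · have e1 : Z (irep hν hVa g (Lp.const 2 ν ω)) = R (Lp.const 2 ν ω) := by
      rw [hZ]
      change R (irep hν hVa g⁻¹ (irep hν hVa g (Lp.const 2 ν ω))) = _
      rw [← mul_ap (irep hν hVa g⁻¹), ← map_mul, inv_mul_cancel, map_one]
      rfl
    change Z (irep hν hVa g (Lp.const 2 ν ω)) ∈ SzV ν ρ ω (D J)
    rw [e1, mem_SzV]
    intro a ha
    have h2 : ∀ᵐ x ∂ν, (Lp.const 2 ν ω : Lp K 2 ν) (g⁻¹ • x) = ω :=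
      ae_comp (f := fun x : E ⧸ Λ => g⁻¹ • x) ((cdat ν hν).mp g⁻¹)
        (Lp.coeFn_const (p := 2) (μ := ν) ω)
    filter_upwards [hRae (Lp.const 2 ν ω), h2] with x a1 a2
    rw [a1, a2]
    refine inner_span h (hz _) fun hF => ha ?_
    have := hJ _ hF
    rwa [inv_inv] at this
  · have e2 : ‖(Z - 1) (Lp.const 2 ν ω)‖ =
        ‖Ri (cdat ν hν) z g (H34.Ind.pi (cdat ν hν) hVa g⁻¹ (Lp.const 2 (cdat ν hν).μ ω)) -
          Lp.const 2 (cdat ν hν).μ ω‖ := by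
      rw [hZ, hR]; rfl
    rw [e2]
    exact hzε

end gl

end Vale.Agent.P092.H725
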