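import Vale.Agent.P092.H725.SizeI
import Vale.Agent.P092.H933.GLGap2
import Vale.Agent.P092.H458.Size

/-!
P092 (helper725), team D: `SD.SIZE` for the concrete picture `Lp K 2 ν` over `SL_3(ℝ) ⧸ Λ`, and its
dual form.
-/

set_option linter.all false

open scoped InnerProductSpace ENNReal
open Set Filter Topology MeasureTheory ContinuousLinearMap

namespace Vale.Agent.P092.H725

open Vale.Agent.P092.H160 Vale.Agent.P092.H933 Vale.Agent.P092.H368 Vale.Agent.P092.H103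
open Vale.Agent.P092.SD
open Vale.Agent.P092.RC (Cm)

/-! ### `tau` -/

section tau

variable {k : Type} [Field k]

theorem tau_coe (g : G3 k) : (tau k g).1 = (g⁻¹).1.transpose := rfl

theorem tau_tau (g : G3 k) : tau k (tau k g) = g := by
  apply Subtype.ext
  rw [tau_coe, ← map_inv, tau_coe, inv_inv, Matrix.transpose_transpose]

theorem tau_bw (w : kˣ) : tau k (bw w) = (bw w)⁻¹ := by
  have h : tau k (bw w) = (bw w)⁻¹ ↔ tau k (bw w)⁻¹ = bw w := by
    rw [map_inv, inv_eq_iff_eq_inv]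
  rw [h]
  apply Subtype.ext
  rw [tau_coe, inv_inv]
  change (Matrix.diagonal _ : Matrix (Fin 3) (Fin 3) k).transpose = Matrix.diagonal _
  rw [Matrix.diagonal_transpose]

end tau

section taun

variable {k : Type} [NontriviallyNormedField k]

theorem nm_tau (g : G3 k) : nm (tau k g) = nm g⁻¹ := by
  refine le_antisymm ?_ ?_
  · refine (pi_norm_le_iff_of_nonneg (nm_nonneg _)).2 fun i =>
      (pi_norm_le_iff_of_nonneg (nm_nonneg _)).2 fun j => ?_
    exact entry_le_nm g⁻¹ j i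
  · refine (pi_norm_le_iff_of_nonneg (nm_nonneg _)).2 fun i =>
      (pi_norm_le_iff_of_nonneg (nm_nonneg _)).2 fun j => ?_
    exact entry_le_nm (tau k g) j i

theorem not_DJ_tau {Γ : Type} [Group Γ] {q : Γ →* G3 k} {J : ℕ} {γ : Γ}
    (h : Real.exp J < nm (tau k (q γ))) : γ ∉ DJ q J := by
  intro hγ
  rw [nm_tau] at h
  have h1 := hγ.2
  have h2 := nm_nonneg (q γ)⁻¹
  linarith

end taun

/-! ### Composition with an automorphism -/

section comp

variable {K : Type*} [NormedAddCommGroup K] [InnerProductSpace ℂ K] [CompleteSpace K]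
  {H H' : Type*} [Group H] [Group H'] {π : H →* (K →L[ℂ] K)} {M : StarSubalgebra ℂ (K →L[ℂ] K)}
  {Ω : K} {F : ℕ → Submodule ℂ K}

theorem grD_comp (D : H221.Gr.GrD π M Ω F) (f : H' →* H) : H221.Gr.GrD (π.comp f) M Ω F where
  adj h := by
    change adjoint (π (f h)) = π (f h⁻¹)
    rw [D.adj, map_inv f h]
  Ad h x hx := by
    change π (f h) * x * π (f h⁻¹) ∈ M
    rw [map_inv f h]; exact D.Ad _ x hx
  one := D.one
  tr := D.tr
  inv h x hx := by
    change ⟪Ω, (π (f h) * x * π (f h⁻¹)) Ω⟫_ℂ = _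
    rw [map_inv f h]; exact D.inv _ x hx
  un h := D.un (f h)
  mono := D.mono
  sh h := D.sh (f h)
  st := D.st

theorem gap_comp {f : H' →* H} {f' : H →* H'} (h1 : ∀ x, f (f' x) = x) (h2 : ∀ x, f' (f x) = x)
    {a : H'} (h : Gap π M Ω (f a)) : Gap (π.comp f) M Ω a := fun η hη => by
  obtain ⟨p, hp, l, hl, hg⟩ := h η hη
  refine ⟨p, hp, fun i => f' (l i), fun i => ?_, fun x hx hx1 => ?_⟩
  · have h3 := congrArg f' (hl i : l i * f a = f a * l i)
    rw [map_mul, map_mul, h2] at h3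
    exact h3
  · have h3 := hg x hx hx1
    have e : ∀ i, (π.comp f) (f' (l i)) * x * (π.comp f) (f' (l i))⁻¹ =
        π (l i) * x * π (l i)⁻¹ := by
      intro i
      change π (f (f' (l i))) * x * π (f (f' (l i))⁻¹) = _
      rw [map_inv f, h1]
    simp only [e]
    exact h3

theorem kap_comp {f : H' →* H}
    (h : ∀ g : H, ∀ ε : ℝ, 0 < ε → ∃ J, ∃ Z ∈ H221.Gr.CC π M Ω F J g, ‖(Z - 1) Ω‖ ≤ ε) :
    ∀ g : H', ∀ ε : ℝ, 0 < ε → ∃ J, ∃ Z ∈ H221.Gr.CC (π.comp f) M Ω F J g, ‖(Z - 1) Ω‖ ≤ ε :=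
  fun g ε hε => h (f g) ε hε

end comp

/-! ### The gap for `bw w` -/

section levi

theorem levi_bw (w : ℝˣ) : LeviGap (bw w) := by
  have k12 : ∀ s : ℝ, Commute (Matrix.SpecialLinearGroup.transvection
      (show (1 : Fin 3) ≠ 2 by decide) s) (bw w) := by
    intro s
    apply Subtype.ext
    change Matrix.transvection (1 : Fin 3) 2 s * Matrix.diagonal _ =
      Matrix.diagonal _ * Matrix.transvection (1 : Fin 3) 2 s
    ext a b
    rw [Matrix.mul_diagonal, Matrix.diagonal_mul]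
    fin_cases a <;> fin_cases b <;>
      simp [Matrix.transvection, Matrix.single_apply, Matrix.one_apply, mul_comm]
  have k21 : ∀ s : ℝ, Commute (Matrix.SpecialLinearGroup.transvection
      (show (2 : Fin 3) ≠ 1 by decide) s) (bw w) := by
    intro s
    apply Subtype.ext
    change Matrix.transvection (2 : Fin 3) 1 s * Matrix.diagonal _ =
      Matrix.diagonal _ * Matrix.transvection (2 : Fin 3) 1 s
    ext a b
    rw [Matrix.mul_diagonal, Matrix.diagonal_mul]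
    fin_cases a <;> fin_cases b <;>
      simp [Matrix.transvection, Matrix.single_apply, Matrix.one_apply, mul_comm]
  exact leviGap_real (i := 0) (j := 1) (l := 2) (by decide) (by decide) (by decide)
    (k21 _) (k12 _)

theorem moore_one : MooreSet (G3 ℝ)
    {(Matrix.SpecialLinearGroup.transvection (show (0 : Fin 3) ≠ 1 by decide) (1 : ℝ) : G3 ℝ)} := by
  intro 𝓗 _ _ _ σ hσ ξ hξ g
  have h1 := hσ.fixed_of_trans (by norm_num) (show (0 : Fin 3) ≠ 1 by decide) (η := ξ)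
    (hξ _ rfl)
  exact h1 g

end levi

/-! ### SIZE -/

section size

variable [LocallyCompactSpace (G3 ℝ)] [SecondCountableTopology (G3 ℝ)] [T2Space (G3 ℝ)]
  [MeasurableSpace (G3 ℝ)] [BorelSpace (G3 ℝ)] {Λ : Subgroup (G3 ℝ)} [DiscreteTopology Λ]
  [MeasurableSpace (G3 ℝ ⧸ Λ)] [BorelSpace (G3 ℝ ⧸ Λ)]
  {ν : Measure (G3 ℝ ⧸ Λ)} [IsProbabilityMeasure ν]
  (hν : ∀ g : G3 ℝ, ν.map (fun x => g • x) = ν) [Countable Λ]
  {Γ Γ₂ K : Type} [Group Γ] [Group Γ₂] [Countable Γ] [Countable Γ₂] [NormedAddCommGroup K]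
  [InnerProductSpace ℂ K] [CompleteSpace K] {ρ : Γ × Γ₂ →* (K →L[ℂ] K)} {ω : K}
  {V : Λ →* (K →L[ℂ] K)}

/-- **SIZE** for the concrete picture. -/
theorem size_lp (h : RegRep ρ ω) (hVa : ∀ v, adjoint (V v) = V v⁻¹) (hc : ∀ v, Cmm ρ (V v))
    (hirr : ∀ A : K →L[ℂ] K, Cmm ρ A → Cmm V A → ∃ c : ℂ, A = c • 1)
    (b : HilbertBasis (Γ × Γ₂) ℂ K) (hb : ∀ p, b p = ρ p ω) (q : Γ →* G3 ℝ)
    {lam : Γ →* (Lp K 2 ν →L[ℂ] Lp K 2 ν)} {W : Set (Lp K 2 ν →L[ℂ] Lp K 2 ν)}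
    (hM : Ms lam W (Lp.const 2 ν ω) (mm ν b Prod.fst)) (w : ℝˣ) :
    SIZE w (irep hν hVa) (Lp.const 2 ν ω) (mm ν b Prod.fst) q := by
  have hD : Flt (fun J => (MonoidHom.fst Γ Γ₂) ⁻¹' DJ q J) := (flt_DJ q).comap _
  refine H458.Size.size_gr hM (grD hν hVa h hc hD) ?_ ?_ ?_
  · intro J v hv
    exact link q b hb J hv
  · intro g η hη
    exact gap_fin hν hVa h hc hirr moore_one ((levi_bw w).conj g).inv η hη
  · intro g ε hε
    exact kap_gl hν h hVa hc hD g hε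

/-- **SIZE** for the concrete picture, dual form. -/
theorem size_lp_dual (h : RegRep ρ ω) (hVa : ∀ v, adjoint (V v) = V v⁻¹) (hc : ∀ v, Cmm ρ (V v))
    (hirr : ∀ A : K →L[ℂ] K, Cmm ρ A → Cmm V A → ∃ c : ℂ, A = c • 1)
    (b : HilbertBasis (Γ × Γ₂) ℂ K) (hb : ∀ p, b p = ρ p ω) (q : Γ →* G3 ℝ)
    {lam : Γ →* (Lp K 2 ν →L[ℂ] Lp K 2 ν)} {W : Set (Lp K 2 ν →L[ℂ] Lp K 2 ν)}
    (hM : Ms lam W (Lp.const 2 ν ω) (mm ν b Prod.fst)) (w : ℝˣ) :
    SIZE w ((irep hν hVa).comp (tau ℝ)) (Lp.const 2 ν ω) (mm ν b Prod.fst) ((tau ℝ).comp q) := by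
  have hD : Flt (fun J => (MonoidHom.fst Γ Γ₂) ⁻¹' DJ q J) := (flt_DJ q).comap _
  refine H458.Size.size_gr hM (grD_comp (grD hν hVa h hc hD) (tau ℝ)) ?_ ?_ ?_
  · intro J v hv
    refine mm_eq_zero b Prod.fst fun i hi => ?_
    rw [hb]
    exact mem_SzV.1 hv i fun hmem => not_DJ_tau hi hmem
  · intro g
    refine gap_comp (π := irep hν hVa) (M := FinM ν h.adj) (f := tau ℝ) (f' := tau ℝ) tau_tau
      tau_tau ?_
    intro η hη
    have e : tau ℝ (g * bw w * g⁻¹)⁻¹ = tau ℝ g * bw w * (tau ℝ g)⁻¹ := by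
      rw [map_inv, map_mul, map_mul, map_inv, tau_bw]
      group
    rw [e]
    exact gap_fin hν hVa h hc hirr moore_one ((levi_bw w).conj _) η hη
  · exact kap_comp fun g ε hε => kap_gl hν h hVa hc hD g hε

end size

end Vale.Agent.P092.H725
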