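import Vale.Agent.P092.H725.SizeF

/-!
P092 (helper725), team D: the growth input of `SD.CNT` (sizes at the times `2 ^ j`) for the concrete
picture `Lp K 2 ν` over `SL_3(ℝ) ⧸ Λ`, and its dual form.
-/

set_option linter.all false

open scoped InnerProductSpace ENNReal
open Set Filter Topology MeasureTheory ContinuousLinearMap

namespace Vale.Agent.P092.H725

open Vale.Agent.P092.H160 Vale.Agent.P092.H933 Vale.Agent.P092.H368 Vale.Agent.P092.H103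
open Vale.Agent.P092.SD
open Vale.Agent.P092.RC (Cm)

section abs

variable {k : Type} [NontriviallyNormedField k] {Γ K : Type} [Group Γ]
  [NormedAddCommGroup K] [InnerProductSpace ℂ K] [CompleteSpace K]
  {lam : Γ →* (K →L[ℂ] K)} {W : Set (K →L[ℂ] K)} {Ω : K} {m : Set Γ → (K →L[ℂ] K)}
  {w : kˣ} {π : G3 k →* (K →L[ℂ] K)} {q : Γ →* G3 k}

/-- sizes at the times `2 ^ j` -/
theorem size8_of (hM : Ms lam W Ω m) {F : ℕ → Submodule ℂ K} {M : StarSubalgebra ℂ (K →L[ℂ] K)}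
    (D : H221.Gr.GrD π M Ω F)
    (hF : ∀ J : ℕ, ∀ v ∈ F J, m {γ | Real.exp J < nm (q γ)} v = 0)
    (gap : ∀ g : G3 k, Gap π M Ω (g * bw w * g⁻¹)⁻¹)
    (kap : ∀ h : G3 k, ∀ ε : ℝ, 0 < ε → ∃ J, ∃ Z ∈ H221.Gr.CC π M Ω F J h, ‖(Z - 1) Ω‖ ≤ ε) :
    ∀ g : G3 k, ∀ ε > 0, ∃ c : ℝ, ∀ j : ℕ,
      ‖m {γ | c * 8 ^ j < Real.log (nm (q γ))} (π (g * bw w ^ (2 ^ j) * g⁻¹)⁻¹ Ω)‖ ≤ ε := by
  intro g ε hε
  obtain ⟨C, hC⟩ := D.growth_vec_all (gap g) kap hε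
  refine ⟨(C : ℝ), fun j => ?_⟩
  obtain ⟨v, hv, hv1⟩ := hC (2 ^ j) Nat.one_le_two_pow
  have hcast : ((C * (2 ^ j) ^ 3 : ℕ) : ℝ) = (C : ℝ) * 8 ^ j := by
    push_cast
    rw [← pow_mul, mul_comm j 3, pow_mul]
    norm_num
  have h1 : m {γ | (C : ℝ) * 8 ^ j < Real.log (nm (q γ))} v = 0 := by
    have h2 := H458.Size.ms_mono hM (S := {γ | (C : ℝ) * 8 ^ j < Real.log (nm (q γ))})
      (T := {γ | Real.exp ((C * (2 ^ j) ^ 3 : ℕ) : ℝ) < nm (q γ)})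
      (fun γ hγ => by
        have hγ' : (C : ℝ) * 8 ^ j < Real.log (nm (q γ)) := hγ
        have h0 : (0 : ℝ) ≤ (C : ℝ) * 8 ^ j := by positivity
        have hpos : 0 < nm (q γ) := by
          rcases (nm_nonneg (q γ)).eq_or_lt with h | h
          · rw [← h, Real.log_zero] at hγ'
            linarith
          · exact h
        change Real.exp ((C * (2 ^ j) ^ 3 : ℕ) : ℝ) < nm (q γ)
        rw [hcast]
        exact (Real.lt_log_iff_exp_lt hpos).1 hγ') v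
    rw [hF _ v hv, norm_zero] at h2
    exact norm_le_zero_iff.mp h2
  rw [← H458.Size.conj_pow']
  have h3 : m {γ | (C : ℝ) * 8 ^ j < Real.log (nm (q γ))} (π ((g * bw w * g⁻¹)⁻¹ ^ (2 ^ j)) Ω) =
      m {γ | (C : ℝ) * 8 ^ j < Real.log (nm (q γ))} (π ((g * bw w * g⁻¹)⁻¹ ^ (2 ^ j)) Ω - v) := by
    rw [map_sub, h1, sub_zero]
  rw [h3]
  exact (H458.Size.ms_norm_le hM _ _).trans hv1

end abs

section size

variable [LocallyCompactSpace (G3 ℝ)] [SecondCountableTopology (G3 ℝ)] [T2Space (G3 ℝ)]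
  [MeasurableSpace (G3 ℝ)] [BorelSpace (G3 ℝ)] {Λ : Subgroup (G3 ℝ)} [DiscreteTopology Λ]
  [MeasurableSpace (G3 ℝ ⧸ Λ)] [BorelSpace (G3 ℝ ⧸ Λ)]
  {ν : Measure (G3 ℝ ⧸ Λ)} [IsProbabilityMeasure ν]
  (hν : ∀ g : G3 ℝ, ν.map (fun x => g • x) = ν) [Countable Λ]
  {Γ Γ₂ K : Type} [Group Γ] [Group Γ₂] [Countable Γ] [Countable Γ₂] [NormedAddCommGroup K]
  [InnerProductSpace ℂ K] [CompleteSpace K] {ρ : Γ × Γ₂ →* (K →L[ℂ] K)} {ω : K}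
  {V : Λ →* (K →L[ℂ] K)}

/-- **Growth input of `SD.CNT`** for the concrete picture. -/
theorem size8_lp (h : RegRep ρ ω) (hVa : ∀ v, adjoint (V v) = V v⁻¹) (hc : ∀ v, Cmm ρ (V v))
    (hirr : ∀ A : K →L[ℂ] K, Cmm ρ A → Cmm V A → ∃ c : ℂ, A = c • 1)
    (b : HilbertBasis (Γ × Γ₂) ℂ K) (hb : ∀ p, b p = ρ p ω) (q : Γ →* G3 ℝ)
    {lam : Γ →* (Lp K 2 ν →L[ℂ] Lp K 2 ν)} {W : Set (Lp K 2 ν →L[ℂ] Lp K 2 ν)}
    (hM : Ms lam W (Lp.const 2 ν ω) (mm ν b Prod.fst)) (w : ℝˣ) :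
    ∀ g : G3 ℝ, ∀ ε > 0, ∃ c : ℝ, ∀ j : ℕ,
      ‖mm ν b Prod.fst {γ | c * 8 ^ j < Real.log (nm (q γ))}
        (irep hν hVa (g * bw w ^ (2 ^ j) * g⁻¹)⁻¹ (Lp.const 2 ν ω))‖ ≤ ε := by
  have hD : Flt (fun J => (MonoidHom.fst Γ Γ₂) ⁻¹' DJ q J) := (flt_DJ q).comap _
  refine size8_of hM (grD hν hVa h hc hD) ?_ ?_ ?_
  · intro J v hv
    exact link q b hb J hv
  · intro g η hη
    exact gap_fin hν hVa h hc hirr moore_one ((levi_bw w).conj g).inv η hη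
  · intro g ε hε
    exact kap_gl hν h hVa hc hD g hε

/-- **Growth input of `SD.CNT`** for the concrete picture, dual form. -/
theorem size8_lp_dual (h : RegRep ρ ω) (hVa : ∀ v, adjoint (V v) = V v⁻¹)
    (hc : ∀ v, Cmm ρ (V v))
    (hirr : ∀ A : K →L[ℂ] K, Cmm ρ A → Cmm V A → ∃ c : ℂ, A = c • 1)
    (b : HilbertBasis (Γ × Γ₂) ℂ K) (hb : ∀ p, b p = ρ p ω) (q : Γ →* G3 ℝ)
    {lam : Γ →* (Lp K 2 ν →L[ℂ] Lp K 2 ν)} {W : Set (Lp K 2 ν →L[ℂ] Lp K 2 ν)}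
    (hM : Ms lam W (Lp.const 2 ν ω) (mm ν b Prod.fst)) (w : ℝˣ) :
    ∀ g : G3 ℝ, ∀ ε > 0, ∃ c : ℝ, ∀ j : ℕ,
      ‖mm ν b Prod.fst {γ | c * 8 ^ j < Real.log (nm (((tau ℝ).comp q) γ))}
        (((irep hν hVa).comp (tau ℝ)) (g * bw w ^ (2 ^ j) * g⁻¹)⁻¹ (Lp.const 2 ν ω))‖ ≤ ε := by
  have hD : Flt (fun J => (MonoidHom.fst Γ Γ₂) ⁻¹' DJ q J) := (flt_DJ q).comap _
  refine size8_of (π := (irep hν hVa).comp (tau ℝ)) (q := (tau ℝ).comp q) hM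
    (grD_comp (grD hν hVa h hc hD) (tau ℝ)) ?_ ?_ ?_
  · intro J v hv
    refine mm_eq_zero b Prod.fst fun i hi => ?_
    rw [hb]
    exact mem_SzV.1 hv i fun hmem => not_DJ_tau hi hmem
  · intro g
    refine gap_comp (π := irep hν hVa) (M := FinM ν h.adj) (f := tau ℝ) (f' := tau ℝ) tau_tau
      tau_tau ?_
    intro η hη
    have e : tau ℝ (g * bw w * g⁻¹)⁻¹ = tau ℝ g * bw w * (tau ℝ g)⁻¹ := by
      rw [map_inv, map_mul, map_mul, map_inv, tau_bw]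
      group
    rw [e]
    exact gap_fin hν hVa h hc hirr moore_one ((levi_bw w).conj _) η hη
  · exact kap_comp fun g ε hε => kap_gl hν h hVa hc hD g hε

end size

end Vale.Agent.P092.H725
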